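import Vale.Agent.P213.Main.Final
import Vale.Agent.P213.Cyl.Data
import Vale.Agent.P213.Glue.NCat
import Vale.Agent.P213.ExInf.TrivFib

/-!
# The Thomason model structure on strict n-categories, for every n
-/

namespace Vale.Agent.Results.P213.ThomasonStructure

open Vale.Agent.P213

/-- For every `1 ≤ n ≤ ω` the Thomason classes of the Street nerve form a model structure on
strict `n`-categories, Quillen equivalent to simplicial sets by `c_n Sd² ⊣ Ex² N_n`. -/
theorem result : ∀ n : ℕ∞, 1 ≤ n → ThomasonTheorem (Oriental.nerveN n) :=
  thomason_nCat_of trivFibGoal fun n hn => Glue.ncatInput Homotopy.cylData n hn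

end Vale.Agent.Results.P213.ThomasonStructure
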